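import Vale.Agent.P307.Core

/-!
Eventual categoricity in ZFC for abstract elementary classes whose models have small components.
-/

universe u

open FirstOrder Cardinal Vale.Agent.P307

theorem Vale.Agent.Results.P307.SmallComponents.result :
    ∀ lam : Cardinal.{u}, ℵ₀ ≤ lam → ∀ (L : Language.{u, u}) (K : AEC L), K.LSLe lam →
      (∀ M : Str L, K.mem M → Vale.Agent.P307.SmallComponents lam M) →
      ∀ κ, 2 ^ lam < κ → K.Categorical κ → ∀ κ', 2 ^ lam < κ' → K.Categorical κ' :=
  fun _ hlam _ K hLS hsmall _ hκ hcat _ hκ' => categorical_transfer K hlam hLS hsmall hκ hcat hκ'
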